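import Vale.Agent.Lib.P165.Main

/-!
`p_c < p_u` for regular quasi-transitive graphs whose spectral radius `ρ` and degree `d`
satisfy `d (1 - ρ)^3 ≥ 28`.
-/

open Vale.Agent.Lib.P165

/-- Let `G` be an infinite, connected, `d`-regular, quasi-transitive graph such that the number
of closed walks of length `2n` at any vertex is at most `(d ρ)^(2n)` (that is, the spectral radius
of the simple random walk is at most `ρ`), with `d (1 - ρ)^3 ≥ 28`. Then
`p_c(G) ≤ (1 + (1 - ρ)/3)/d`, `1/(d ρ) ≤ p_u(G)`, and `p_c(G) < p_u(G)`. -/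
theorem Vale.Agent.Results.P165.HighDegree.result {V : Type*} (G : SimpleGraph V)
    [G.LocallyFinite] [Infinite V] (hc : G.Connected) (hqt : QuasiTransitive G) {d : ℕ}
    (hd : ∀ v, G.degree v = d) {ρ : ℝ} (hρ0 : 0 ≤ ρ)
    (hρ : ∀ x n, (walkCount G (2 * n) x x : ℝ) ≤ ((d : ℝ) * ρ) ^ (2 * n))
    (hcrit : 28 ≤ (d : ℝ) * (1 - ρ) ^ 3) :
    pC G ≤ (1 + (1 - ρ) / 3) / d ∧ 1 / ((d : ℝ) * ρ) ≤ pU G ∧ pC G < pU G :=
  high_degree G hc hqt hd hρ0 hρ hcrit
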