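import Vale.Agent.Lib.P165.Main

/-!
A criterion for `p_c < p_u` on quasi-transitive graphs, in terms of the degree bounds and the
growth rate of closed walks.
-/

open Vale.Agent.Lib.P165

/-- Let `G` be an infinite, connected, quasi-transitive graph with degrees in `[δ, Δ]` whose closed
walks of length `2n` at any vertex number at most `r^(2n)`. If `0 < p < 1`, `p r < 1` and
`p (δ - 1 - 2 p Δ / (1 - p r)^2) ≥ 1`, then `p_c(G) ≤ p` and `1/r ≤ p_u(G)`; so `p_c(G) < p_u(G)`. -/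
theorem Vale.Agent.Results.P165.SpectralCriterion.result {V : Type*} (G : SimpleGraph V)
    [G.LocallyFinite] [Infinite V] (hc : G.Connected) (hqt : QuasiTransitive G)
    {δ Δ r p : ℝ} (hδ : ∀ v, δ ≤ (G.degree v : ℝ)) (hΔ : ∀ v, (G.degree v : ℝ) ≤ Δ)
    (hr0 : 0 < r) (hr : ∀ x n, (walkCount G (2 * n) x x : ℝ) ≤ r ^ (2 * n))
    (hp0 : 0 < p) (hp1 : p < 1) (hκ : p * r < 1)
    (hcrit : 1 ≤ p * (δ - 1 - p * Δ * (2 / (1 - p * r) ^ 2))) :
    pC G ≤ p ∧ 1 / r ≤ pU G ∧ pC G < pU G := by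
  obtain ⟨h1, h2⟩ := spectral_criterion G hc hqt hδ hΔ hr0 hr hp0 hp1 hκ hcrit
  refine ⟨h1, h2, lt_of_le_of_lt h1 (lt_of_lt_of_le ?_ h2)⟩
  rwa [lt_div_iff₀ hr0]
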