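import Vale.Agent.Results.P165.CheegerHighDegree
import Vale.Agent.Results.P165.HighDegree
import Vale.Agent.Results.P165.SpectralCriterion

open Vale.Agent.Lib.P165

universe u

/-- The three sufficient conditions for `p_c < p_u` on quasi-transitive graphs, stated together:
the Cheeger form, the high degree spectral form and the general closed-walk criterion. -/
theorem Vale.Agent.Results.P165.A0Conj.result :
    (∀ {V : Type u} (G : SimpleGraph V)
      [G.LocallyFinite] [Infinite V] (_ : G.Connected) (_ : QuasiTransitive G)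
      {d : ℕ} (_ : ∀ v, G.degree v = d) {h : ℝ} (_ : 0 < h)
      (_ : ∀ A : Finset V, h * (A.card : ℝ) ≤ ((edgeBoundary G (↑A : Set V)).ncard : ℝ))
      (_ : 224 * (d : ℝ) ^ 5 ≤ h ^ 6),
      pC G ≤ (1 + (h / d) ^ 2 / 6) / d ∧ 1 / ((d : ℝ) * (1 - (h / d) ^ 2 / 2)) ≤ pU G ∧
        pC G < pU G) ∧
    (∀ {V : Type u} (G : SimpleGraph V)
      [G.LocallyFinite] [Infinite V] (_ : G.Connected) (_ : QuasiTransitive G) {d : ℕ}
      (_ : ∀ v, G.degree v = d) {ρ : ℝ} (_ : 0 ≤ ρ)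
      (_ : ∀ x n, (walkCount G (2 * n) x x : ℝ) ≤ ((d : ℝ) * ρ) ^ (2 * n))
      (_ : 28 ≤ (d : ℝ) * (1 - ρ) ^ 3),
      pC G ≤ (1 + (1 - ρ) / 3) / d ∧ 1 / ((d : ℝ) * ρ) ≤ pU G ∧ pC G < pU G) ∧
    (∀ {V : Type u} (G : SimpleGraph V)
      [G.LocallyFinite] [Infinite V] (_ : G.Connected) (_ : QuasiTransitive G)
      {δ Δ r p : ℝ} (_ : ∀ v, δ ≤ (G.degree v : ℝ)) (_ : ∀ v, (G.degree v : ℝ) ≤ Δ)
      (_ : 0 < r) (_ : ∀ x n, (walkCount G (2 * n) x x : ℝ) ≤ r ^ (2 * n))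
      (_ : 0 < p) (_ : p < 1) (_ : p * r < 1)
      (_ : 1 ≤ p * (δ - 1 - p * Δ * (2 / (1 - p * r) ^ 2))),
      pC G ≤ p ∧ 1 / r ≤ pU G ∧ pC G < pU G) :=
  ⟨@Vale.Agent.Results.P165.CheegerHighDegree.result,
    @Vale.Agent.Results.P165.HighDegree.result,
    @Vale.Agent.Results.P165.SpectralCriterion.result⟩
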