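import Vale.Agent.Lib.P165.CheegerMain

/-!
`p_c < p_u` for regular quasi-transitive graphs whose edge expansion `h` satisfies
`h^6 ≥ 224 d^5`.
-/

open Vale.Agent.Lib.P165

/-- Let `G` be an infinite, connected, `d`-regular, quasi-transitive graph in which every finite
vertex set `A` has at least `h |A|` edges leaving it, where `h > 0` and `h^6 ≥ 224 d^5`. Then
`p_c(G) ≤ (1 + (h/d)^2/6)/d`, `1/(d (1 - (h/d)^2/2)) ≤ p_u(G)` and `p_c(G) < p_u(G)`. -/
theorem Vale.Agent.Results.P165.CheegerHighDegree.result {V : Type*} (G : SimpleGraph V)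
    [G.LocallyFinite] [Infinite V] (hc : G.Connected) (hqt : QuasiTransitive G)
    {d : ℕ} (hd : ∀ v, G.degree v = d) {h : ℝ} (h0 : 0 < h)
    (hh : ∀ A : Finset V, h * (A.card : ℝ) ≤ ((edgeBoundary G (↑A : Set V)).ncard : ℝ))
    (hcrit : 224 * (d : ℝ) ^ 5 ≤ h ^ 6) :
    pC G ≤ (1 + (h / d) ^ 2 / 6) / d ∧ 1 / ((d : ℝ) * (1 - (h / d) ^ 2 / 2)) ≤ pU G ∧
      pC G < pU G := by
  refine cheeger_high_degree G hc hqt hd h0 (fun A => ?_) hcrit
  have e := hh A
  rw [ncard_edgeBoundary] at e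
  push_cast at e
  exact e
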